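import Mathlib

/-!
P022-L3, chapter G, row [OY] (helper429): `N`-th roots of holomorphic functions on the upper
half plane all of whose orders are divisible by `N`.
-/

open Filter Metric Set
open scoped Topology

namespace Vale.Agent.P022.H429

/-- locally at `z₀`, `G` is an `N`-th power times a unit. -/
def Loc (N : ℕ) (G : ℂ → ℂ) (z₀ : ℂ) : Prop :=
  ∃ (m : ℕ) (k : ℂ → ℂ), AnalyticAt ℂ k z₀ ∧ k z₀ ≠ 0 ∧
    ∀ᶠ z in 𝓝 z₀, G z = ((z - z₀) ^ m) ^ N * k z

lemma Loc.of_eq {N : ℕ} {G α y : ℂ → ℂ} {z₀ : ℂ} (hα : AnalyticAt ℂ α z₀)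
    (hy : AnalyticAt ℂ y z₀) (hy0 : y z₀ ≠ 0) (h : ∀ᶠ z in 𝓝 z₀, α z ^ N = G z * y z)
    (hG : ¬ ∀ᶠ z in 𝓝 z₀, G z = 0) (hN : N ≠ 0) : Loc N G z₀ := by
  have hyn : ∀ᶠ z in 𝓝 z₀, y z ≠ 0 := hy.continuousAt.eventually_ne hy0
  have hα' : ¬ ∀ᶠ z in 𝓝 z₀, α z = 0 := by
    intro h0
    apply hG
    filter_upwards [h0, h, hyn] with z h1 h2 h3
    rw [h1, zero_pow hN] at h2
    exact (mul_eq_zero.mp h2.symm).resolve_right h3
  obtain ⟨m, a, ha, ha0, hae⟩ := hα.exists_eventuallyEq_pow_smul_nonzero_iff.mpr hα'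
  refine ⟨m, fun z => a z ^ N / y z, (ha.pow N).div hy hy0, div_ne_zero (pow_ne_zero _ ha0) hy0, ?_⟩
  filter_upwards [hae, h, hyn] with z h1 h2 h3
  rw [h1, smul_eq_mul, mul_pow] at h2
  field_simp
  rw [← h2]

lemma Loc.ne_zero {N : ℕ} {G : ℂ → ℂ} {z₀ : ℂ} (h : Loc N G z₀) : ∀ᶠ z in 𝓝[≠] z₀, G z ≠ 0 := by
  obtain ⟨m, k, hk, hk0, he⟩ := h
  have h1 : ∀ᶠ z in 𝓝 z₀, k z ≠ 0 := hk.continuousAt.eventually_ne hk0
  filter_upwards [nhdsWithin_le_nhds he, nhdsWithin_le_nhds h1, self_mem_nhdsWithin] with z h2 h3 h4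
  rw [h2]
  exact mul_ne_zero (pow_ne_zero _ (pow_ne_zero _ (sub_ne_zero.mpr h4))) h3

/-- nonvanishing case on a ball -/
lemma root_nonvanishing {N : ℕ} (hN : N ≠ 0) {c : ℂ} {r : ℝ} (hr : 0 < r) {G : ℂ → ℂ}
    (hG : ∀ z ∈ ball c r, AnalyticAt ℂ G z) (h0 : ∀ z ∈ ball c r, G z ≠ 0) :
    ∃ H : ℂ → ℂ, (∀ z ∈ ball c r, AnalyticAt ℂ H z) ∧ ∀ z ∈ ball c r, H z ^ N = G z := by
  have hd : DifferentiableOn ℂ (fun z => deriv G z / G z) (ball c r) := fun z hz =>
    ((hG z hz).deriv.div (hG z hz) (h0 z hz)).differentiableAt.differentiableWithinAt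
  obtain ⟨L, hL⟩ := hd.isExactOn_ball
  have hcball : c ∈ ball c r := mem_ball_self hr
  have hF : ∀ z ∈ ball c r, HasDerivAt (fun z => G z * Complex.exp (-L z)) 0 z := by
    intro z hz
    have h1 := (hG z hz).differentiableAt.hasDerivAt
    have h2 : HasDerivAt (fun w => Complex.exp (-L w)) (Complex.exp (-L z) * -(deriv G z / G z)) z :=
      (hL z hz).neg.cexp
    refine (h1.fun_mul h2).congr_deriv ?_
    have h3 := h0 z hz
    field_simp
    ring
  have hconst : ∀ z ∈ ball c r, G z * Complex.exp (-L z) = G c * Complex.exp (-L c) := by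
    intro z hz
    refine isOpen_ball.is_const_of_deriv_eq_zero (convex_ball c r).isPreconnected
      (f := fun z => G z * Complex.exp (-L z)) ?_ ?_ hz hcball
    · exact fun w hw => (hF w hw).differentiableAt.differentiableWithinAt
    · exact fun w hw => (hF w hw).deriv
  obtain ⟨β, hβ⟩ := IsAlgClosed.exists_pow_nat_eq (G c) (Nat.pos_of_ne_zero hN)
  refine ⟨fun z => β * Complex.exp ((L z - L c) / N), ?_, ?_⟩
  · have hLd : DifferentiableOn ℂ L (ball c r) := fun z hz =>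
      (hL z hz).differentiableAt.differentiableWithinAt
    intro z hz
    have hLa : AnalyticAt ℂ L z := hLd.analyticAt (isOpen_ball.mem_nhds hz)
    fun_prop
  · intro z hz
    have h1 := hconst z hz
    have hN' : (N : ℂ) ≠ 0 := Nat.cast_ne_zero.mpr hN
    rw [mul_pow, hβ, ← Complex.exp_nat_mul, mul_div_cancel₀ _ hN', Complex.exp_sub]
    rw [Complex.exp_neg, Complex.exp_neg] at h1
    have h2 := Complex.exp_ne_zero (L z)
    have h3 := Complex.exp_ne_zero (L c)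
    field_simp at h1 ⊢
    linear_combination -h1

lemma root_fin {N : ℕ} (hN : N ≠ 0) {c : ℂ} {r : ℝ} (hr : 0 < r) (Z : Finset ℂ) :
    ∀ G : ℂ → ℂ, (∀ z ∈ ball c r, AnalyticAt ℂ G z) → (∀ z ∈ ball c r, G z = 0 → z ∈ Z) →
    (∀ z ∈ ball c r, Loc N G z) →
    ∃ H : ℂ → ℂ, (∀ z ∈ ball c r, AnalyticAt ℂ H z) ∧ ∀ z ∈ ball c r, H z ^ N = G z := by
  induction Z using Finset.induction_on with
  | empty =>
    intro G hG hZ _
    exact root_nonvanishing hN hr hG fun z hz h => by simpa using hZ z hz h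
  | insert z₀ Z hz₀ ih =>
    intro G hG hZ hL
    by_cases hmem : z₀ ∈ ball c r
    · obtain ⟨m, k, hk, hk0, he⟩ := hL z₀ hmem
      let G₁ : ℂ → ℂ := fun z => if z = z₀ then k z₀ else G z / ((z - z₀) ^ m) ^ N
      have hG₁₀ : G₁ =ᶠ[𝓝 z₀] k := by
        filter_upwards [he] with z hz
        by_cases h : z = z₀
        · simp [G₁, h]
        · simp only [G₁, if_neg h, hz]
          have : z - z₀ ≠ 0 := sub_ne_zero.mpr h
          field_simp
      have hG₁₁ : ∀ z₁, z₁ ≠ z₀ → G₁ =ᶠ[𝓝 z₁] fun z => G z / ((z - z₀) ^ m) ^ N := by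
        intro z₁ h1
        filter_upwards [isOpen_ne.mem_nhds h1] with z hz
        simp only [G₁]
        rw [if_neg hz]
      have hex : ∃ H₁ : ℂ → ℂ, (∀ z ∈ ball c r, AnalyticAt ℂ H₁ z) ∧ ∀ z ∈ ball c r, H₁ z ^ N = G₁ z := by
        refine ih G₁ ?_ ?_ ?_
        · intro z hz
          by_cases h : z = z₀
          · subst h
            exact hk.congr hG₁₀.symm
          · refine AnalyticAt.congr ?_ (hG₁₁ z h).symm
            refine (hG z hz).div (by fun_prop) (pow_ne_zero _ (pow_ne_zero _ (sub_ne_zero.mpr h)))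
        · intro z hz h0
          by_cases h : z = z₀
          · subst h
            simp only [G₁, if_true] at h0
            exact absurd h0 hk0
          · simp only [G₁, if_neg h] at h0
            have h1 : G z = 0 := by
              rcases div_eq_zero_iff.mp h0 with h2 | h2
              · exact h2
              · exact absurd h2 (pow_ne_zero _ (pow_ne_zero _ (sub_ne_zero.mpr h)))
            exact (Finset.mem_insert.mp (hZ z hz h1)).resolve_left h
        · intro z hz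
          by_cases h : z = z₀
          · subst h
            refine ⟨0, k, hk, hk0, ?_⟩
            filter_upwards [hG₁₀] with w hw
            rw [hw]
            simp
          · obtain ⟨m₁, k₁, hk₁, hk₁0, he₁⟩ := hL z hz
            refine ⟨m₁, fun w => k₁ w / ((w - z₀) ^ m) ^ N, ?_, ?_, ?_⟩
            · exact hk₁.div (by fun_prop) (pow_ne_zero _ (pow_ne_zero _ (sub_ne_zero.mpr h)))
            · exact div_ne_zero hk₁0 (pow_ne_zero _ (pow_ne_zero _ (sub_ne_zero.mpr h)))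
            · filter_upwards [hG₁₁ z h, he₁] with w hw hw1
              rw [hw, hw1, mul_div_assoc]
      obtain ⟨H₁, hH₁, hH₁e⟩ := hex
      · refine ⟨fun z => (z - z₀) ^ m * H₁ z, fun z hz => ?_, fun z hz => ?_⟩
        · have := hH₁ z hz
          fun_prop
        · rw [mul_pow, hH₁e z hz]
          by_cases h : z = z₀
          · subst h
            have h2 := he.self_of_nhds
            simp only [G₁, if_true]
            exact h2.symm
          · simp only [G₁, if_neg h]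
            have : z - z₀ ≠ 0 := sub_ne_zero.mpr h
            field_simp
    · refine ih G hG (fun z hz h => ?_) hL
      refine (Finset.mem_insert.mp (hZ z hz h)).resolve_left ?_
      rintro rfl
      exact hmem hz

lemma root_ball {N : ℕ} (hN : N ≠ 0) {c : ℂ} {r : ℝ} (hr : 0 < r) {G : ℂ → ℂ}
    (hG : ∀ z ∈ closedBall c r, AnalyticAt ℂ G z) (hL : ∀ z ∈ closedBall c r, Loc N G z) :
    ∃ H : ℂ → ℂ, (∀ z ∈ ball c r, AnalyticAt ℂ H z) ∧ ∀ z ∈ ball c r, H z ^ N = G z := by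
  have hfin : ({z | z ∈ closedBall c r ∧ G z = 0}).Finite := by
    by_contra hinf
    obtain ⟨x, hx, hacc⟩ := Set.Infinite.exists_accPt_of_subset_isCompact hinf
      (isCompact_closedBall c r) (fun z hz => hz.1)
    rw [accPt_iff_frequently_nhdsNE] at hacc
    obtain ⟨z, h1, h2⟩ := (hacc.and_eventually (hL x hx).ne_zero).exists
    exact h2 h1.2
  refine root_fin hN hr hfin.toFinset G (fun z hz => hG z (ball_subset_closedBall hz))
    (fun z hz h => by simpa using ⟨(mem_ball.mp hz).le, h⟩)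
    (fun z hz => hL z (ball_subset_closedBall hz))

lemma root_unique {N : ℕ} (hN : N ≠ 0) {W : Set ℂ} (hWo : IsOpen W) (hW : IsPreconnected W)
    {b : ℂ} (hb : b ∈ W) {G H₁ H₂ : ℂ → ℂ} (hGb : G b ≠ 0)
    (h1 : ∀ z ∈ W, AnalyticAt ℂ H₁ z) (h2 : ∀ z ∈ W, AnalyticAt ℂ H₂ z)
    (e1 : ∀ z ∈ W, H₁ z ^ N = G z) (e2 : ∀ z ∈ W, H₂ z ^ N = G z) (hbb : H₁ b = H₂ b) :
    ∀ z ∈ W, H₁ z = H₂ z := by
  have hH2b : H₂ b ≠ 0 := by
    intro h
    apply hGb
    rw [← e2 b hb, h, zero_pow hN]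
  have hcont : ContinuousAt (fun z => H₁ z / H₂ z) b :=
    (h1 b hb).continuousAt.div (h2 b hb).continuousAt hH2b
  have hval : (fun z => H₁ z / H₂ z) b = 1 := by
    simp only
    rw [hbb, div_self hH2b]
  have hfin : ({w : ℂ | w ^ N = 1 ∧ w ≠ 1}).Finite := by
    refine Set.Finite.subset (Polynomial.nthRoots N (1 : ℂ)).toFinset.finite_toSet ?_
    intro w hw
    simpa [Polynomial.mem_nthRoots (Nat.pos_of_ne_zero hN)] using hw.1
  have hev : ∀ᶠ w in 𝓝 (1 : ℂ), w ∉ {w : ℂ | w ^ N = 1 ∧ w ≠ 1} :=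
    hfin.isClosed.isOpen_compl.mem_nhds (by simp)
  have hev2 : ∀ᶠ z in 𝓝 b, H₁ z / H₂ z ∉ {w : ℂ | w ^ N = 1 ∧ w ≠ 1} := by
    have := hcont.tendsto
    have hval' : H₁ b / H₂ b = 1 := hval
    rw [hval'] at this
    exact this.eventually hev
  have heq : H₁ =ᶠ[𝓝 b] H₂ := by
    filter_upwards [hev2, (h2 b hb).continuousAt.eventually_ne hH2b, hWo.mem_nhds hb] with z hz hz2 hzW
    by_contra hne
    apply hz
    refine ⟨?_, ?_⟩
    · rw [div_pow, e1 z hzW, e2 z hzW, div_self]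
      rw [← e2 z hzW]
      exact pow_ne_zero _ hz2
    · intro h
      exact hne ((div_eq_one_iff_eq hz2).mp h)
  have hA1 : AnalyticOnNhd ℂ H₁ W := fun z hz => h1 z hz
  have hA2 : AnalyticOnNhd ℂ H₂ W := fun z hz => h2 z hz
  exact fun z hz => hA1.eqOn_of_preconnected_of_eventuallyEq hA2 hW hb heq hz

lemma good_ball {b z : ℂ} (hb : 0 < b.im) (hz : 0 < z.im) :
    ∃ (c : ℂ) (r : ℝ), 0 < r ∧ closedBall c r ⊆ {w | 0 < w.im} ∧ b ∈ ball c r ∧ z ∈ ball c r := by
  set δ := min b.im z.im / 2 with hδ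
  have hδ0 : 0 < δ := by positivity
  have hδb : δ < b.im := by
    have := min_le_left b.im z.im
    have := lt_min hb hz
    linarith
  have hδz : δ < z.im := by
    have := min_le_right b.im z.im
    have := lt_min hb hz
    linarith
  -- choose t
  obtain ⟨t, ht⟩ : ∃ t : ℝ, δ < t ∧ (b.re ^ 2 + b.im ^ 2) < 2 * t * (b.im - δ) + δ ^ 2 ∧
      (z.re ^ 2 + z.im ^ 2) < 2 * t * (z.im - δ) + δ ^ 2 := by
    have h1 : ∀ᶠ t : ℝ in atTop, δ < t := eventually_gt_atTop δ
    have hb1 : Tendsto (fun t : ℝ => 2 * t * (b.im - δ) + δ ^ 2) atTop atTop := by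
      refine tendsto_atTop_add_const_right _ _ ?_
      refine Tendsto.atTop_mul_const (by linarith) ?_
      exact tendsto_id.const_mul_atTop (by norm_num)
    have hz1 : Tendsto (fun t : ℝ => 2 * t * (z.im - δ) + δ ^ 2) atTop atTop := by
      refine tendsto_atTop_add_const_right _ _ ?_
      refine Tendsto.atTop_mul_const (by linarith) ?_
      exact tendsto_id.const_mul_atTop (by norm_num)
    exact (h1.and ((hb1.eventually_gt_atTop _).and (hz1.eventually_gt_atTop _))).exists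
  obtain ⟨ht0, htb, htz⟩ := ht
  have key : ∀ w : ℂ, (w.re ^ 2 + w.im ^ 2) < 2 * t * (w.im - δ) + δ ^ 2 →
      w ∈ ball (⟨0, t⟩ : ℂ) (t - δ) := by
    intro w hw
    rw [mem_ball, Complex.dist_eq, Complex.norm_def, Real.sqrt_lt' (by linarith)]
    rw [Complex.normSq_apply]
    simp only [Complex.sub_re, Complex.sub_im]
    nlinarith
  refine ⟨⟨0, t⟩, t - δ, by linarith, ?_, key b htb, key z htz⟩
  intro w hw
  rw [mem_closedBall, Complex.dist_eq] at hw
  have h1 := (Complex.abs_im_le_norm (w - ⟨0, t⟩)).trans hw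
  simp only [Complex.sub_im] at h1
  have h2 := (abs_le.mp h1).1
  change 0 < w.im
  linarith

/-- **(ROOT)** on the upper half plane. -/
theorem root_plane {N : ℕ} (hN : N ≠ 0) {G : ℂ → ℂ}
    (hG : ∀ z : ℂ, 0 < z.im → AnalyticAt ℂ G z) (hL : ∀ z : ℂ, 0 < z.im → Loc N G z) :
    ∃ H : ℂ → ℂ, (∀ z : ℂ, 0 < z.im → AnalyticAt ℂ H z) ∧ ∀ z : ℂ, 0 < z.im → H z ^ N = G z := by
  have hopen : IsOpen {w : ℂ | 0 < w.im} := isOpen_lt continuous_const Complex.continuous_im
  obtain ⟨b, hb, hGb⟩ : ∃ b : ℂ, 0 < b.im ∧ G b ≠ 0 := by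
    have h1 := (hL Complex.I (by simp)).ne_zero
    have h2 : ∀ᶠ z in 𝓝[≠] Complex.I, z ∈ {w : ℂ | 0 < w.im} :=
      nhdsWithin_le_nhds (hopen.mem_nhds (by simp))
    obtain ⟨b, hb, hb2⟩ := (h1.and h2).exists
    exact ⟨b, hb2, hb⟩
  obtain ⟨β, hβ⟩ := IsAlgClosed.exists_pow_nat_eq (G b) (Nat.pos_of_ne_zero hN)
  -- for every `z` a good ball and a normalised root
  have hex : ∀ z : ℂ, ∃ (c : ℂ) (r : ℝ) (H : ℂ → ℂ), 0 < z.im → (closedBall c r ⊆ {w | 0 < w.im} ∧
      b ∈ ball c r ∧ z ∈ ball c r ∧ (∀ w ∈ ball c r, AnalyticAt ℂ H w) ∧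
      (∀ w ∈ ball c r, H w ^ N = G w) ∧ H b = β) := by
    intro z
    by_cases hz : 0 < z.im
    · obtain ⟨c, r, hr, hsub, hbc, hzc⟩ := good_ball hb hz
      obtain ⟨H, hH, hHe⟩ := root_ball hN hr (fun w hw => hG w (hsub hw)) (fun w hw => hL w (hsub hw))
      have hHb : H b ≠ 0 := by
        intro h
        apply hGb
        rw [← hHe b hbc, h, zero_pow hN]
      refine ⟨c, r, fun w => β / H b * H w, fun _ => ⟨hsub, hbc, hzc, fun w hw => ?_, fun w hw => ?_, ?_⟩⟩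
      · have := hH w hw
        fun_prop
      · rw [mul_pow, div_pow, hβ, hHe b hbc, hHe w hw, div_self hGb, one_mul]
      · field_simp
    · exact ⟨0, 0, 0, fun h => absurd h hz⟩
  choose c r H hH using hex
  have huniq : ∀ z w : ℂ, 0 < z.im → 0 < w.im → w ∈ ball (c z) (r z) → H w w = H z w := by
    intro z w hz hw hwz
    obtain ⟨-, hb1, hz1, ha1, he1, hβ1⟩ := hH z hz
    obtain ⟨-, hb2, hz2, ha2, he2, hβ2⟩ := hH w hw
    refine root_unique hN (W := ball (c w) (r w) ∩ ball (c z) (r z))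
      (isOpen_ball.inter isOpen_ball) ((convex_ball _ _).inter (convex_ball _ _)).isPreconnected
      ⟨hb2, hb1⟩ hGb (fun x hx => ha2 x hx.1) (fun x hx => ha1 x hx.2)
      (fun x hx => he2 x hx.1) (fun x hx => he1 x hx.2) (hβ2.trans hβ1.symm) w ⟨hz2, hwz⟩
  refine ⟨fun z => H z z, fun z hz => ?_, fun z hz => ?_⟩
  · obtain ⟨-, hb1, hz1, ha1, he1, hβ1⟩ := hH z hz
    refine (ha1 z hz1).congr ?_
    filter_upwards [isOpen_ball.mem_nhds hz1, hopen.mem_nhds hz] with w hw hwim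
    exact (huniq z w hz hwim hw).symm
  · obtain ⟨-, hb1, hz1, ha1, he1, hβ1⟩ := hH z hz
    exact he1 z hz1

end Vale.Agent.P022.H429
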