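import Vale.Agent.P022.H429.L3.NullS
import Vale.Agent.P022.H429.L3.Root

/-!
P022-L3, chapter G, row [OY] (helper429): 'every order in `ℍ` is divisible by `N`' is the ring
condition `Crit N g` on `OY Γ`, hence preserved by every ring automorphism.
-/

open UpperHalfPlane ModularForm MatrixGroups Filter
open scoped Manifold Topology

namespace Vale.Agent.P022.H429

/-- `g` is, locally for the Zariski topology, an `N`-th power times a unit. -/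
def Crit {A : Type*} [CommRing A] (N : ℕ) (g : A) : Prop :=
  Ideal.span {y : A | ∃ α : A, α ^ N = g * y} = ⊤

lemma Crit.map {A B : Type*} [CommRing A] [CommRing B] (f : A →+* B) {N : ℕ} {g : A}
    (h : Crit N g) : Crit N (f g) := by
  rw [Crit, Ideal.eq_top_iff_one] at h ⊢
  have h1 := Ideal.mem_map_of_mem f h
  rw [Ideal.map_span, map_one] at h1
  refine Ideal.span_mono ?_ h1
  rintro _ ⟨y, ⟨α, hα⟩, rfl⟩
  exact ⟨f α, by rw [← map_pow, hα, map_mul]⟩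

lemma crit_equiv {A B : Type*} [CommRing A] [CommRing B] (e : A ≃+* B) {N : ℕ} {g : A} :
    Crit N (e g) ↔ Crit N g :=
  ⟨fun h => by simpa using h.map (e.symm : B →+* A), fun h => h.map (e : A →+* B)⟩

/-- holomorphic functions of moderate growth with character `φ` under `Γ` -/
def OYc (Γ : Subgroup SL(2, ℤ)) (φ : Γ →* ℂˣ) : Set (ℍ → ℂ) :=
  {f | MDiff f ∧ Mod f ∧ ∀ γ : Γ, ∀ τ : ℍ, f ((γ : SL(2, ℤ)) • τ) = φ γ * f τ}

variable {Γ : Subgroup SL(2, ℤ)}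

lemma OYc_mul {φ ψ : Γ →* ℂˣ} {f g : ℍ → ℂ} (hf : f ∈ OYc Γ φ) (hg : g ∈ OYc Γ ψ) :
    (f * g) ∈ OYc Γ (φ * ψ) :=
  ⟨hf.1.mul hg.1, hf.2.1.mul hg.2.1, fun γ τ => by
    simp only [Pi.mul_apply, hf.2.2 γ τ, hg.2.2 γ τ, MonoidHom.mul_apply, Units.val_mul]
    ring⟩

lemma OYc_one_iff {f : ℍ → ℂ} : f ∈ OYc Γ 1 ↔ f ∈ OY Γ :=
  ⟨fun h => ⟨h.1, h.2.1, fun γ hγ τ => by simpa using h.2.2 ⟨γ, hγ⟩ τ⟩,
    fun h => ⟨h.1, h.2.1, fun γ τ => by simpa using h.2.2 γ γ.2 τ⟩⟩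

lemma OYc_pow {φ : Γ →* ℂˣ} {f : ℍ → ℂ} (hf : f ∈ OYc Γ φ) (n : ℕ) : (f ^ n) ∈ OYc Γ (φ ^ n) := by
  induction n with
  | zero =>
    have h0 : φ ^ 0 = 1 := by ext; simp
    rw [h0, pow_zero]
    exact OYc_one_iff.mpr (one_mem (OY Γ))
  | succ n ih =>
    have h0 : φ ^ (n + 1) = φ ^ n * φ := by ext; simp [pow_succ]
    rw [h0, pow_succ]
    exact OYc_mul ih hf

lemma inv_pow_eq_one {N : ℕ} {φ : Γ →* ℂˣ} (hφ : φ ^ N = 1) : φ⁻¹ ^ N = 1 := by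
  ext γ
  have := DFunLike.congr_fun hφ γ
  simp at this
  simp [this]

lemma mul_inv_eq_one' (φ : Γ →* ℂˣ) : φ * φ⁻¹ = 1 := by ext; simp

/-- **(CRIT, ⇒)** -/
theorem crit_of_root [Γ.FiniteIndex] {N : ℕ} {φ : Γ →* ℂˣ} (hφ : φ ^ N = 1) {H : ℍ → ℂ}
    (hH : H ∈ OYc Γ φ) (g : OY Γ) (hg : ∀ τ, (g : ℍ → ℂ) τ = H τ ^ N)
    (hu : ∀ w : ℍ, ∃ u ∈ OYc Γ φ⁻¹, u w ≠ 0) : Crit N g := by
  refine nul _ fun τ => ?_
  obtain ⟨u, hu, hu0⟩ := hu τ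
  have h1 : u ^ N ∈ OY Γ := by
    rw [← OYc_one_iff]
    have := OYc_pow hu N
    rwa [inv_pow_eq_one hφ] at this
  have h2 : H * u ∈ OY Γ := by
    rw [← OYc_one_iff]
    have := OYc_mul hH hu
    rwa [mul_inv_eq_one'] at this
  refine ⟨⟨u ^ N, h1⟩, ⟨⟨H * u, h2⟩, ?_⟩, ?_⟩
  · apply Subtype.ext
    funext w
    change (H w * u w) ^ N = (g : ℍ → ℂ) w * u w ^ N
    rw [hg, mul_pow]
  · exact pow_ne_zero _ hu0

lemma ana {f : ℍ → ℂ} (hf : MDiff f) {z : ℂ} (hz : 0 < z.im) : AnalyticAt ℂ (f ∘ ofComplex) z :=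
  (UpperHalfPlane.mdifferentiable_iff.mp hf).analyticAt
    ((isOpen_lt continuous_const Complex.continuous_im).mem_nhds hz)

/-- holomorphic `N`-th root on `ℍ` from local data -/
theorem root_H {N : ℕ} (hN : N ≠ 0) {g : ℍ → ℂ} (hg : MDiff g) (hg0 : g ≠ 0)
    (hloc : ∀ τ₀ : ℍ, ∃ α y : ℍ → ℂ, MDiff α ∧ MDiff y ∧ y τ₀ ≠ 0 ∧ ∀ τ, α τ ^ N = g τ * y τ) :
    ∃ H : ℍ → ℂ, MDiff H ∧ ∀ τ, H τ ^ N = g τ := by
  have hopen : IsOpen {w : ℂ | 0 < w.im} := isOpen_lt continuous_const Complex.continuous_im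
  have hne : ∀ z : ℂ, 0 < z.im → ¬ ∀ᶠ w in 𝓝 z, (g ∘ ofComplex) w = 0 := by
    intro z hz h
    apply hg0
    have hA : AnalyticOnNhd ℂ (g ∘ ofComplex) {w : ℂ | 0 < w.im} := fun w hw => ana hg hw
    have h2 := hA.eqOn_zero_of_preconnected_of_eventuallyEq_zero
      (convex_halfSpace_im_gt 0).isPreconnected hz h
    funext τ
    have h3 := h2 τ.im_pos
    simpa using h3
  obtain ⟨H, hH, hHe⟩ := root_plane hN (G := g ∘ ofComplex) (fun z hz => ana hg hz) (by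
    intro z hz
    obtain ⟨α, y, hα, hy, hy0, he⟩ := hloc ⟨z, hz⟩
    refine Loc.of_eq (ana hα hz) (ana hy hz) ?_ (Eventually.of_forall fun w => he _) (hne z hz) hN
    simpa [ofComplex_apply_of_im_pos hz] using hy0)
  refine ⟨fun τ => H τ, ?_, fun τ => ?_⟩
  · rw [UpperHalfPlane.mdifferentiable_iff]
    intro z hz
    have h1 : AnalyticAt ℂ H z := hH z hz
    refine (h1.differentiableAt.congr_of_eventuallyEq ?_).differentiableWithinAt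
    filter_upwards [hopen.mem_nhds hz] with w hw
    simp [ofComplex_apply_of_im_pos (show 0 < w.im from hw)]
  · have := hHe τ τ.im_pos
    simpa using this

lemma Mod.of_pow {N : ℕ} (hN : N ≠ 0) {H : ℍ → ℂ} (h : Mod (fun τ => H τ ^ N)) : Mod H := by
  obtain ⟨m, hm⟩ := h
  refine ⟨m, fun γ => ?_⟩
  have h1 := bdd_mul (hm γ) (bdd_disc_pow (m * (N - 1)))
  have h2 : (fun τ => H (γ • τ) ^ N * discriminant τ ^ m * discriminant τ ^ (m * (N - 1)))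
      = fun τ => (H (γ • τ) * discriminant τ ^ m) ^ N := by
    ext τ
    rw [mul_pow, ← pow_mul, mul_assoc, ← pow_add]
    congr 2
    obtain ⟨n, rfl⟩ := Nat.exists_eq_succ_of_ne_zero hN
    simp
    ring
  rw [h2, isBoundedAtImInfty_iff] at h1
  rw [isBoundedAtImInfty_iff]
  obtain ⟨M, A, hMA⟩ := h1
  refine ⟨max 1 M, A, fun z hz => ?_⟩
  have h3 := hMA z hz
  rw [norm_pow] at h3
  by_cases h4 : ‖H (γ • z) * discriminant z ^ m‖ ≤ 1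
  · exact h4.trans (le_max_left _ _)
  · push Not at h4
    exact ((le_self_pow₀ h4.le hN).trans h3).trans (le_max_right _ _)

/-- the character of a root -/
theorem exists_char {N : ℕ} (hN : N ≠ 0) {H : ℍ → ℂ} (hH : MDiff H) (hH0 : H ≠ 0)
    (h : ∀ γ ∈ Γ, ∀ τ, H (γ • τ) ^ N = H τ ^ N) :
    ∃ φ : Γ →* ℂˣ, φ ^ N = 1 ∧ ∀ γ : Γ, ∀ τ, H ((γ : SL(2, ℤ)) • τ) = φ γ * H τ := by
  obtain ⟨τ₁, hτ₁⟩ : ∃ τ, H τ ≠ 0 := by
    by_contra hcon
    push Not at hcon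
    exact hH0 (funext hcon)
  have hex : ∀ γ : Γ, ∃ ζ : ℂ, ζ ^ N = 1 ∧ ∀ τ, H ((γ : SL(2, ℤ)) • τ) = ζ * H τ := by
    intro γ
    have hprim := Complex.isPrimitiveRoot_exp N hN
    have hprod : ∏ ζ ∈ Polynomial.nthRootsFinset N (1 : ℂ),
        (fun τ : ℍ => H ((γ : SL(2, ℤ)) • τ) - ζ * H τ) = 0 := by
      funext τ
      rw [Finset.prod_apply, ← hprim.pow_sub_pow_eq_prod_sub_mul _ _ (Nat.pos_of_ne_zero hN),
        h γ γ.2 τ]
      simp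
    rw [UpperHalfPlane.prod_eq_zero_iff] at hprod
    · obtain ⟨ζ, hζ, h0⟩ := hprod
      refine ⟨ζ, (Polynomial.mem_nthRootsFinset (Nat.pos_of_ne_zero hN) 1).mp hζ, fun τ => ?_⟩
      exact sub_eq_zero.mp (congrFun h0 τ)
    · intro ζ _
      exact (mdiff_comp hH _).sub (mdifferentiable_const.mul hH)
  choose ζ hζ hζe using hex
  have hζ0 : ∀ γ, ζ γ ≠ 0 := fun γ h0 => by
    have := hζ γ
    rw [h0, zero_pow hN] at this
    exact zero_ne_one this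
  have hone : ζ 1 = 1 := by
    have := hζe 1 τ₁
    rw [OneMemClass.coe_one, one_smul] at this
    exact (mul_right_cancel₀ hτ₁ (by rw [one_mul]; exact this)).symm
  have hmul : ∀ γ δ, ζ (γ * δ) = ζ γ * ζ δ := by
    intro γ δ
    have h1 := hζe (γ * δ) τ₁
    rw [Subgroup.coe_mul, mul_smul, hζe γ, hζe δ] at h1
    exact (mul_right_cancel₀ hτ₁ (by rw [← h1]; ring)).symm
  refine ⟨{ toFun := fun γ => Units.mk0 (ζ γ) (hζ0 γ)
            map_one' := Units.ext hone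
            map_mul' := fun γ δ => Units.ext (hmul γ δ) }, ?_, fun γ τ => hζe γ τ⟩
  ext γ
  exact hζ γ

/-- **(CRIT, ⇐; ROOT)** -/
theorem root_of_crit {N : ℕ} (hN : N ≠ 0) (g : OY Γ) (hg0 : g ≠ 0) (h : Crit N g) :
    ∃ (φ : Γ →* ℂˣ) (H : ℍ → ℂ), φ ^ N = 1 ∧ H ∈ OYc Γ φ ∧ ∀ τ, H τ ^ N = (g : ℍ → ℂ) τ := by
  have hg0' : (g : ℍ → ℂ) ≠ 0 := fun h => hg0 (Subtype.ext h)
  obtain ⟨H, hH, hHe⟩ := root_H hN g.2.1 hg0' (by
    intro τ₀
    by_contra hcon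
    push Not at hcon
    let ev : OY Γ →+* ℂ :=
      (Pi.evalRingHom (fun _ : ℍ => ℂ) τ₀).comp ((OY Γ).val : OY Γ →+* (ℍ → ℂ))
    have h1 : Ideal.span {y : OY Γ | ∃ α : OY Γ, α ^ N = g * y} ≤ RingHom.ker ev := by
      rw [Ideal.span_le]
      rintro y ⟨α, hα⟩
      by_contra hy
      obtain ⟨τ, hτ⟩ := hcon (α : ℍ → ℂ) (y : ℍ → ℂ) α.2.1 y.2.1 hy
      exact hτ (congrFun (congrArg Subtype.val hα) τ)
    rw [h] at h1
    exact (RingHom.ker_ne_top ev) (top_le_iff.mp h1))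
  have hH0 : H ≠ 0 := by
    rintro rfl
    apply hg0'
    funext τ
    rw [← hHe τ]
    simp [hN]
  obtain ⟨φ, hφ, hφe⟩ := exists_char (Γ := Γ) hN hH hH0 (fun γ hγ τ => by
    rw [hHe, hHe, g.2.2.2 γ hγ])
  refine ⟨φ, H, hφ, ⟨hH, ?_, hφe⟩, hHe⟩
  refine Mod.of_pow hN ?_
  have : (fun τ => H τ ^ N) = (g : ℍ → ℂ) := funext hHe
  rw [this]
  exact g.2.2.1

end Vale.Agent.P022.H429
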