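import Vale.Agent.P022.H429.L3.OY

/-!
P022-L3, chapter G, row [OY] (helper429): integrality over `ℂ[j]`, Nullstellensatz.
-/

open UpperHalfPlane ModularForm MatrixGroups Filter Polynomial
open scoped Manifold Topology

namespace Vale.Agent.P022.H429

/-- translation of functions by `g⁻¹`. -/
noncomputable def tr (g : SL(2, ℤ)) : (ℍ → ℂ) →ₐ[ℂ] (ℍ → ℂ) where
  toFun f := fun τ => f (g⁻¹ • τ)
  map_one' := rfl
  map_mul' _ _ := rfl
  map_zero' := rfl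
  map_add' _ _ := rfl
  commutes' _ := rfl

@[simp] lemma tr_apply (g : SL(2, ℤ)) (f : ℍ → ℂ) (τ : ℍ) : tr g f τ = f (g⁻¹ • τ) := rfl

lemma tr_mem_HM (g : SL(2, ℤ)) {f : ℍ → ℂ} (hf : f ∈ HM) : tr g f ∈ HM :=
  ⟨mdiff_comp hf.1 g⁻¹, hf.2.comp g⁻¹⟩

lemma OY_le_HM (Γ : Subgroup SL(2, ℤ)) : OY Γ ≤ HM := fun _ hf => ⟨hf.1, hf.2.1⟩

lemma mem_OY_top {f : ℍ → ℂ} (hf : f ∈ HM) (h : ∀ g, tr g f = f) : f ∈ OY ⊤ :=
  ⟨hf.1, hf.2, fun γ _ τ => by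
    have := congrFun (h γ⁻¹) τ
    simpa using this⟩

variable {Γ : Subgroup SL(2, ℤ)}

/-- the conjugates of `a ∈ OY Γ`, indexed by the cosets. -/
noncomputable def cj (a : OY Γ) : SL(2, ℤ) ⧸ Γ → (ℍ → ℂ) :=
  Quotient.lift (fun g => tr g (a : ℍ → ℂ)) (by
    intro g h hgh
    have h1 : g⁻¹ * h ∈ Γ := QuotientGroup.leftRel_apply.mp hgh
    ext τ
    have h2 := a.2.2.2 _ h1 (h⁻¹ • τ)
    rw [← mul_smul] at h2
    simp only [tr_apply]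
    rw [← h2]
    congr 2
    group)

lemma cj_mk (a : OY Γ) (g : SL(2, ℤ)) : cj a (QuotientGroup.mk g) = tr g (a : ℍ → ℂ) := rfl

lemma cj_one (a : OY Γ) : cj a (QuotientGroup.mk 1) = (a : ℍ → ℂ) := by
  rw [cj_mk]
  ext τ
  simp

lemma tr_cj (a : OY Γ) (h : SL(2, ℤ)) (q : SL(2, ℤ) ⧸ Γ) : tr h (cj a q) = cj a (h • q) := by
  induction q using QuotientGroup.induction_on with
  | H g =>
    rw [cj_mk]
    have : h • (QuotientGroup.mk g : SL(2, ℤ) ⧸ Γ) = QuotientGroup.mk (h * g) := rfl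
    rw [this, cj_mk]
    ext τ
    simp [mul_smul]

lemma cj_mem (a : OY Γ) (q : SL(2, ℤ) ⧸ Γ) : cj a q ∈ HM := by
  induction q using QuotientGroup.induction_on with
  | H g =>
    rw [cj_mk]
    exact tr_mem_HM g (OY_le_HM Γ a.2)

lemma cj_ne (a : OY Γ) (τ : ℍ) (h : ∀ g : SL(2, ℤ), (a : ℍ → ℂ) (g • τ) ≠ 0)
    (q : SL(2, ℤ) ⧸ Γ) : cj a q τ ≠ 0 := by
  induction q using QuotientGroup.induction_on with
  | H g => exact h g⁻¹

lemma aeval_j (P : ℂ[X]) (τ : ℍ) : (aeval j P : ℍ → ℂ) τ = P.eval (j τ) := by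
  induction P using Polynomial.induction_on' with
  | add p q hp hq => simp [hp, hq]
  | monomial n c => simp [aeval_monomial]

/-- `j` as an element of `OY Γ` -/
noncomputable def jY (Γ : Subgroup SL(2, ℤ)) : OY Γ := ⟨j, j_mem Γ⟩

lemma coe_aeval_jY (P : ℂ[X]) : ((aeval (jY Γ) P : OY Γ) : ℍ → ℂ) = aeval j P := by
  have := Polynomial.aeval_algHom_apply (OY Γ).val (jY Γ) P
  exact this.symm

section finite

variable [Γ.FiniteIndex]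

noncomputable instance : Fintype (SL(2, ℤ) ⧸ Γ) := Fintype.ofFinite _

open Classical in
/-- the norm of `a`, level one. -/
lemma nrm_mem (a : OY Γ) : (∏ q : SL(2, ℤ) ⧸ Γ, cj a q) ∈ OY (⊤ : Subgroup SL(2, ℤ)) := by
  refine mem_OY_top (HM.prod_mem fun q _ => cj_mem a q) fun g => ?_
  rw [map_prod]
  simp only [tr_cj]
  exact Equiv.prod_comp (MulAction.toPerm g : Equiv.Perm (SL(2, ℤ) ⧸ Γ)) (cj a)

open Classical in
lemma cofactor_mem (a : OY Γ) :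
    (∏ q ∈ Finset.univ.erase (QuotientGroup.mk 1 : SL(2, ℤ) ⧸ Γ), cj a q) ∈ OY Γ := by
  have h1 : (∏ q ∈ Finset.univ.erase (QuotientGroup.mk 1 : SL(2, ℤ) ⧸ Γ), cj a q) ∈ HM :=
    HM.prod_mem fun q _ => cj_mem a q
  refine ⟨h1.1, h1.2, fun γ hγ τ => ?_⟩
  have h2 : tr γ⁻¹ (∏ q ∈ Finset.univ.erase (QuotientGroup.mk 1 : SL(2, ℤ) ⧸ Γ), cj a q)
      = ∏ q ∈ Finset.univ.erase (QuotientGroup.mk 1 : SL(2, ℤ) ⧸ Γ), cj a q := by
    rw [map_prod]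
    simp only [tr_cj]
    refine Finset.prod_equiv (MulAction.toPerm γ⁻¹ : Equiv.Perm (SL(2, ℤ) ⧸ Γ)) ?_ ?_
    · intro q
      simp only [Finset.mem_erase, Finset.mem_univ, and_true, MulAction.toPerm_apply]
      have h3 : γ⁻¹ • (QuotientGroup.mk 1 : SL(2, ℤ) ⧸ Γ) = QuotientGroup.mk 1 := by
        change (QuotientGroup.mk (γ⁻¹ * 1) : SL(2, ℤ) ⧸ Γ) = _
        rw [QuotientGroup.eq]
        simpa using hγ
      constructor
      · intro h h4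
        apply h
        rw [← h3] at h4
        exact (MulAction.injective γ⁻¹) h4
      · intro h h4
        apply h
        rw [h4, h3]
    · intro q _
      rfl
  have h4 := congrFun h2 τ
  simpa using h4

open Classical in
/-- the norm is a multiple of `a` and a polynomial in `j`. -/
lemma exists_norm (a : OY Γ) : ∃ (P : ℂ[X]) (b : OY Γ), aeval (jY Γ) P = a * b ∧
    ∀ τ, (∀ g : SL(2, ℤ), (a : ℍ → ℂ) (g • τ) ≠ 0) → P.eval (j τ) ≠ 0 := by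
  obtain ⟨P, hP⟩ := lev1 (nrm_mem a)
  have hN : (∏ q : SL(2, ℤ) ⧸ Γ, cj a q) = aeval j P := by
    ext τ
    rw [hP, aeval_j]
  refine ⟨P, ⟨_, cofactor_mem a⟩, ?_, fun τ h => ?_⟩
  · apply Subtype.ext
    rw [coe_aeval_jY, ← hN, ← Finset.mul_prod_erase Finset.univ _ (Finset.mem_univ
      (QuotientGroup.mk 1 : SL(2, ℤ) ⧸ Γ)), cj_one]
    rfl
  · rw [← hP, Finset.prod_apply]
    exact Finset.prod_ne_zero_iff.mpr fun q _ => cj_ne a τ h q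

/-- **(INT)** every element of `OY Γ` is integral over `ℂ[j]`. -/
theorem isIntegral_OY (a : OY Γ) : ((aeval (jY Γ) : ℂ[X] →ₐ[ℂ] OY Γ) : ℂ[X] →+* OY Γ).IsIntegralElem a := by
  let χ : (ℍ → ℂ)[X] := ∏ q : SL(2, ℤ) ⧸ Γ, (X - C (cj a q))
  have hmon : χ.Monic := monic_prod_of_monic _ _ fun q _ => monic_X_sub_C _
  have hHM : ∀ i, χ.coeff i ∈ HM := by
    have h1 : χ ∈ Polynomial.lifts ((HM.val : HM →ₐ[ℂ] (ℍ → ℂ)) : HM →+* (ℍ → ℂ)) := by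
      refine Subsemiring.prod_mem _ fun q _ => ?_
      rw [sub_eq_add_neg, ← C_neg]
      exact add_mem (X_mem_lifts _) (C'_mem_lifts ⟨⟨_, HM.neg_mem (cj_mem a q)⟩, rfl⟩)
    intro i
    obtain ⟨b, hb⟩ := (Polynomial.lifts_iff_coeff_lifts _).mp h1 i
    rw [← hb]
    exact b.2
  have htr : ∀ g, χ.map (tr g : (ℍ → ℂ) →+* (ℍ → ℂ)) = χ := by
    intro g
    simp only [χ, Polynomial.map_prod, Polynomial.map_sub, Polynomial.map_X, Polynomial.map_C]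
    have : ∀ q : SL(2, ℤ) ⧸ Γ, (tr g : (ℍ → ℂ) →+* (ℍ → ℂ)) (cj a q) = cj a (g • q) := fun q => tr_cj a g q
    simp only [this]
    exact Equiv.prod_comp (MulAction.toPerm g : Equiv.Perm (SL(2, ℤ) ⧸ Γ)) (fun q => X - C (cj a q))
  have hcoeff : ∀ i, χ.coeff i ∈ OY (⊤ : Subgroup SL(2, ℤ)) := fun i =>
    mem_OY_top (hHM i) fun g => by
      conv_rhs => rw [← htr g]
      rw [coeff_map]
      rfl
  have hl : χ ∈ Polynomial.lifts ((aeval j : ℂ[X] →ₐ[ℂ] (ℍ → ℂ)) : ℂ[X] →+* (ℍ → ℂ)) := by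
    rw [Polynomial.lifts_iff_coeff_lifts]
    intro i
    obtain ⟨P, hP⟩ := lev1 (hcoeff i)
    refine ⟨P, ?_⟩
    ext τ
    rw [hP]
    exact aeval_j P τ
  obtain ⟨p, hp, -, hpm⟩ := Polynomial.lifts_and_degree_eq_and_monic hl hmon
  refine ⟨p, hpm, ?_⟩
  apply Subtype.ext
  have h1 : ((OY Γ).val : OY Γ →+* (ℍ → ℂ)) (eval₂ ((aeval (jY Γ) : ℂ[X] →ₐ[ℂ] OY Γ) : ℂ[X] →+* OY Γ) a p)
      = eval₂ ((aeval j : ℂ[X] →ₐ[ℂ] (ℍ → ℂ)) : ℂ[X] →+* (ℍ → ℂ)) (a : ℍ → ℂ) p := by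
    rw [Polynomial.hom_eval₂]
    congr 1
    ext x : 1
    · ext
      simp
    · simp [jY]
  have h2 : eval₂ ((aeval j : ℂ[X] →ₐ[ℂ] (ℍ → ℂ)) : ℂ[X] →+* (ℍ → ℂ)) (a : ℍ → ℂ) p = 0 := by
    rw [← Polynomial.eval_map, hp]
    simp only [χ, Polynomial.eval_prod]
    refine Finset.prod_eq_zero (Finset.mem_univ (QuotientGroup.mk 1 : SL(2, ℤ) ⧸ Γ)) ?_
    rw [cj_one]
    simp
  exact h1.trans h2

/-- **(NUL)** -/
theorem nul (S : Set (OY Γ)) (hS : ∀ τ, ∃ s ∈ S, (s : ℍ → ℂ) τ ≠ 0) : Ideal.span S = ⊤ := by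
  by_contra hne
  obtain ⟨M, hM, hle⟩ := Ideal.exists_le_maximal _ hne
  let ψ : ℂ[X] →+* OY Γ := ((aeval (jY Γ) : ℂ[X] →ₐ[ℂ] OY Γ) : ℂ[X] →+* OY Γ)
  have hint : ψ.IsIntegral := fun a => isIntegral_OY a
  have hP : (M.comap ψ).IsMaximal := Ideal.isMaximal_comap_of_isIntegral_of_isMaximal' ψ hint M
  have hc : ∃ c : ℂ, (X - C c : ℂ[X]) ∈ M.comap ψ := by
    have hbot : M.comap ψ ≠ ⊥ := Ring.ne_bot_of_isMaximal_of_not_isField hP (Polynomial.not_isField ℂ)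
    obtain ⟨p, hp, hp0⟩ := Submodule.exists_mem_ne_zero_of_ne_bot hbot
    have hs := (IsAlgClosed.splits p).eq_prod_roots
    rw [hs] at hp
    rcases hP.isPrime.mem_or_mem hp with h | h
    · exact absurd (Ideal.eq_top_of_isUnit_mem _ h (isUnit_C.mpr
        (IsUnit.mk0 _ (leadingCoeff_ne_zero.mpr hp0)))) hP.ne_top
    · obtain ⟨x, hx, hxm⟩ := (hP.isPrime.multiset_prod_mem_iff_exists_mem _).mp h
      obtain ⟨c, -, rfl⟩ := Multiset.mem_map.mp hx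
      exact ⟨c, hxm⟩
  obtain ⟨c, hc⟩ := hc
  obtain ⟨τ₀, hτ₀⟩ := j_surj c
  -- the evaluation ideals
  let ev : (SL(2, ℤ) ⧸ Γ) → (OY Γ →+* ℂ) := fun q =>
    (Pi.evalRingHom (fun _ : ℍ => ℂ) (q.out⁻¹ • τ₀)).comp ((OY Γ).val : OY Γ →+* (ℍ → ℂ))
  have hsub : (M : Set (OY Γ)) ⊆ ⋃ q ∈ ((Finset.univ : Finset (SL(2, ℤ) ⧸ Γ)) : Set _),
      (RingHom.ker (ev q) : Set (OY Γ)) := by
    intro a ha
    by_contra hcon
    simp only [Set.mem_iUnion, not_exists] at hcon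
    have hne : ∀ g : SL(2, ℤ), (a : ℍ → ℂ) (g • τ₀) ≠ 0 := by
      intro g h0
      apply hcon (QuotientGroup.mk g⁻¹) (by simp)
      change (a : ℍ → ℂ) (((QuotientGroup.mk g⁻¹ : SL(2, ℤ) ⧸ Γ).out)⁻¹ • τ₀) = 0
      have h1 : (QuotientGroup.mk ((QuotientGroup.mk g⁻¹ : SL(2, ℤ) ⧸ Γ).out) : SL(2, ℤ) ⧸ Γ)
          = QuotientGroup.mk g⁻¹ := QuotientGroup.out_eq' _
      have h2 := congrArg (fun q => cj a q τ₀) h1
      simp only [cj_mk, tr_apply, inv_inv] at h2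
      rw [h2, h0]
    obtain ⟨P, b, hPb, hPne⟩ := exists_norm a
    have h1 : P ∈ M.comap ψ := by
      change aeval (jY Γ) P ∈ M
      rw [hPb]
      exact M.mul_mem_right _ ha
    have h2 : C (P.eval c) ∈ M.comap ψ := by
      have h3 : P - C (P.eval c) ∈ M.comap ψ :=
        Ideal.mem_of_dvd _ (X_sub_C_dvd_sub_C_eval) hc
      have h4 := (M.comap ψ).sub_mem h1 h3
      simpa using h4
    have h5 : P.eval c ≠ 0 := by
      rw [← hτ₀]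
      exact hPne τ₀ hne
    exact hP.ne_top (Ideal.eq_top_of_isUnit_mem _ h2 (isUnit_C.mpr (IsUnit.mk0 _ h5)))
  obtain ⟨q, -, hq⟩ := (Ideal.subset_union_prime (QuotientGroup.mk 1) (QuotientGroup.mk 1)
    (fun q _ _ _ => RingHom.ker_isPrime (ev q))).mp hsub
  obtain ⟨s, hs, hs0⟩ := hS (q.out⁻¹ • τ₀)
  exact hs0 (hq (hle (Ideal.subset_span hs)))

end finite

end Vale.Agent.P022.H429
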