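import Mathlib

/-!
P022-L3, chapter G, row [OY] (helper429): the ring of modular functions holomorphic on `ℍ`,
the level one case `ℂ[j]`, surjectivity of `j`.
-/

open UpperHalfPlane ModularForm MatrixGroups Filter
open scoped Manifold Topology

namespace Vale.Agent.P022.H429

/-- moderate growth at every cusp: one power of the discriminant bounds all the translates. -/
def Mod (f : ℍ → ℂ) : Prop :=
  ∃ m : ℕ, ∀ g : SL(2, ℤ), IsBoundedAtImInfty (fun τ => f (g • τ) * discriminant τ ^ m)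

lemma bdd_mul {f g : ℍ → ℂ} (hf : IsBoundedAtImInfty f) (hg : IsBoundedAtImInfty g) :
    IsBoundedAtImInfty (fun τ => f τ * g τ) :=
  (boundedAtImInftySubalgebra ℂ).mul_mem (x := f) (y := g) hf hg

lemma bdd_add {f g : ℍ → ℂ} (hf : IsBoundedAtImInfty f) (hg : IsBoundedAtImInfty g) :
    IsBoundedAtImInfty (fun τ => f τ + g τ) :=
  (boundedAtImInftySubalgebra ℂ).add_mem (x := f) (y := g) hf hg

lemma bdd_disc_pow (m : ℕ) : IsBoundedAtImInfty (fun τ => discriminant τ ^ m) :=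
  (boundedAtImInftySubalgebra ℂ).pow_mem (x := discriminant)
    discriminant_isZeroAtImInfty.isBoundedAtImInfty m

lemma bdd_const (c : ℂ) : IsBoundedAtImInfty (fun _ : ℍ => c) :=
  Filter.const_boundedAtFilter _ c

lemma Mod.const (c : ℂ) : Mod (fun _ => c) :=
  ⟨0, fun _ => by simpa using bdd_const c⟩

lemma Mod.mul {f g : ℍ → ℂ} (hf : Mod f) (hg : Mod g) : Mod (fun τ => f τ * g τ) := by
  obtain ⟨m, hm⟩ := hf
  obtain ⟨n, hn⟩ := hg
  refine ⟨m + n, fun γ => ?_⟩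
  have := bdd_mul (hm γ) (hn γ)
  refine this.congr_left fun τ => ?_
  ring

lemma Mod.add {f g : ℍ → ℂ} (hf : Mod f) (hg : Mod g) : Mod (fun τ => f τ + g τ) := by
  obtain ⟨m, hm⟩ := hf
  obtain ⟨n, hn⟩ := hg
  refine ⟨m + n, fun γ => ?_⟩
  have := bdd_add (bdd_mul (hm γ) (bdd_disc_pow n)) (bdd_mul (hn γ) (bdd_disc_pow m))
  refine this.congr_left fun τ => ?_
  ring

lemma Mod.comp {f : ℍ → ℂ} (hf : Mod f) (g : SL(2, ℤ)) : Mod (fun τ => f (g • τ)) := by
  obtain ⟨m, hm⟩ := hf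
  refine ⟨m, fun γ => ?_⟩
  simpa only [mul_smul] using hm (g * γ)

lemma mdiff_comp {f : ℍ → ℂ} (hf : MDiff f) (g : SL(2, ℤ)) : MDiff (fun τ : ℍ => f (g • τ)) := by
  have h1 : MDiff (fun τ : ℍ => (g : GL (Fin 2) ℝ) • τ) :=
    UpperHalfPlane.mdifferentiable_smul (by simp)
  exact hf.comp h1

/-- holomorphic functions on `ℍ` of moderate growth -/
def HM : Subalgebra ℂ (ℍ → ℂ) where
  carrier := {f | MDiff f ∧ Mod f}
  mul_mem' hf hg := ⟨hf.1.mul hg.1, hf.2.mul hg.2⟩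
  add_mem' hf hg := ⟨hf.1.add hg.1, hf.2.add hg.2⟩
  algebraMap_mem' c := ⟨mdifferentiable_const, Mod.const c⟩

/-- `OY Γ`: holomorphic on `ℍ`, invariant under `Γ`, moderate growth. -/
def OY (Γ : Subgroup SL(2, ℤ)) : Subalgebra ℂ (ℍ → ℂ) where
  carrier := {f | MDiff f ∧ Mod f ∧ ∀ γ ∈ Γ, ∀ τ, f (γ • τ) = f τ}
  mul_mem' {f g} hf hg := ⟨hf.1.mul hg.1, hf.2.1.mul hg.2.1, fun γ hγ τ => by
    simp only [Pi.mul_apply, hf.2.2 γ hγ τ, hg.2.2 γ hγ τ]⟩
  add_mem' {f g} hf hg := ⟨hf.1.add hg.1, hf.2.1.add hg.2.1, fun γ hγ τ => by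
    simp only [Pi.add_apply, hf.2.2 γ hγ τ, hg.2.2 γ hγ τ]⟩
  algebraMap_mem' c := ⟨mdifferentiable_const, Mod.const c, fun _ _ _ => rfl⟩

lemma mem_OY {Γ : Subgroup SL(2, ℤ)} {f : ℍ → ℂ} :
    f ∈ OY Γ ↔ MDiff f ∧ Mod f ∧ ∀ γ ∈ Γ, ∀ τ, f (γ • τ) = f τ := Iff.rfl

lemma OY_mono {Γ Γ' : Subgroup SL(2, ℤ)} (h : Γ ≤ Γ') : OY Γ' ≤ OY Γ :=
  fun _ hf => ⟨hf.1, hf.2.1, fun γ hγ => hf.2.2 γ (h hγ)⟩

/-- weight `12 m` forms divided by the `m`-th power of the discriminant -/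
lemma disc_slash (γ : SL(2, ℤ)) (τ : ℍ) :
    discriminant (γ • τ) = denom γ τ ^ (12 : ℤ) * discriminant τ := by
  have h := congrFun (CuspForm.discriminant.slash_action_eq' (γ : GL (Fin 2) ℝ) ⟨γ, rfl⟩) τ
  have h2 : (discriminant ∣[(12 : ℤ)] γ) τ = discriminant τ := h
  rw [SL_slash_apply] at h2
  rw [← h2]
  field_simp [denom_ne_zero]

lemma disc_pow_slash (m : ℕ) (f : ℍ → ℂ) (γ : SL(2, ℤ)) {k : ℤ} (hk : k = 12 * m) (τ : ℍ) :
    ((fun τ => f τ * discriminant τ ^ m) ∣[k] γ) τ = f (γ • τ) * discriminant τ ^ m := by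
  subst hk
  rw [SL_slash_apply, disc_slash, mul_pow, ← zpow_natCast, ← zpow_mul, zpow_neg]
  field_simp [denom_ne_zero]

/-- a level one function of `OY ⊤` as a quotient of a modular form by a power of `Δ`. -/
lemma exists_form' {f : ℍ → ℂ} (hf : f ∈ OY ⊤) (m : ℕ)
    (hm : IsBoundedAtImInfty (fun τ => f τ * discriminant τ ^ m)) (k : ℤ) (hk : k = 12 * (m : ℤ)) :
    ∃ F : ModularForm 𝒮ℒ k, ∀ τ, F τ = f τ * discriminant τ ^ m := by
  subst hk
  have hinv : ∀ γ : SL(2, ℤ), (fun τ => f τ * discriminant τ ^ m) ∣[(12 * (m : ℤ))] γ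
      = fun τ => f τ * discriminant τ ^ m := by
    intro γ
    ext τ
    rw [disc_pow_slash m f γ rfl τ, hf.2.2 γ trivial]
  refine ⟨{ toFun := fun τ => f τ * discriminant τ ^ m
            slash_action_eq' := ?_
            holo' := ?_
            bdd_at_cusps' := ?_ }, fun τ => rfl⟩
  · rintro _ ⟨γ, rfl⟩
    exact hinv γ
  · exact hf.1.mul (CuspForm.discriminant.holo'.pow m)
  · intro c hc
    rw [Subgroup.IsArithmetic.isCusp_iff_isCusp_SL2Z] at hc
    rw [OnePoint.isBoundedAt_iff_forall_SL2Z hc]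
    intro γ _
    rw [hinv γ]
    exact hm

lemma exists_form {f : ℍ → ℂ} (hf : f ∈ OY ⊤) :
    ∃ (m : ℕ) (F : ModularForm 𝒮ℒ (12 * (m : ℤ))), ∀ τ, F τ = f τ * discriminant τ ^ m := by
  obtain ⟨m, hm⟩ := hf.2.1
  obtain ⟨F, hF⟩ := exists_form' hf m (by simpa using hm 1) _ rfl
  exact ⟨m, F, hF⟩

/-- the `j` function -/
noncomputable def j (τ : ℍ) : ℂ := E₄ τ ^ 3 / discriminant τ

lemma lev1_aux : ∀ (m : ℕ) (k : ℤ), k = 12 * (m : ℤ) → ∀ F : ModularForm 𝒮ℒ k,
    ∃ P : Polynomial ℂ, ∀ τ, F τ / discriminant τ ^ m = P.eval (j τ) := by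
  intro m
  induction m with
  | zero =>
    intro k hk F
    have hk0 : k = 0 := by simpa using hk
    subst hk0
    obtain ⟨c, hc⟩ := ModularFormClass.levelOne_weight_zero_const F
    refine ⟨Polynomial.C c, fun τ => ?_⟩
    simp [hc]
  | succ m ih =>
    intro k hk F
    let e : ModularForm 𝒮ℒ k := ModularForm.mcast (by rw [hk]; push_cast; ring) (E₄.pow (3 * (m + 1)))
    have he : (qExpansion 1 e).coeff 0 = 1 := by
      have h1 : (e : ℍ → ℂ) = (E₄.pow (3 * (m + 1)) : ModularForm 𝒮ℒ _) := rfl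
      rw [h1, ModularForm.qExpansion_pow one_pos one_mem_strictPeriods_SL]
      rw [PowerSeries.coeff_zero_eq_constantCoeff_apply, map_pow,
        ← PowerSeries.coeff_zero_eq_constantCoeff_apply,
        EisensteinSeries.E_qExpansion_coeff_zero _ ⟨2, rfl⟩, one_pow]
    obtain ⟨g, hg⟩ := sub_smul_isCuspForm F e he
    obtain ⟨P, hP⟩ := ih (k - 12) (by rw [hk]; push_cast; ring) (CuspForm.discriminantEquiv g)
    refine ⟨Polynomial.C ((qExpansion 1 F).coeff 0) * Polynomial.X ^ (m + 1) + P, fun τ => ?_⟩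
    have h1 : g τ = F τ - (qExpansion 1 F).coeff 0 * E₄ τ ^ (3 * (m + 1)) := by
      have := congrArg (fun f : ModularForm 𝒮ℒ k => f τ) hg
      have h3 : e τ = E₄ τ ^ (3 * (m + 1)) := by
        change (E₄.pow (3 * (m + 1)) : ModularForm 𝒮ℒ _) τ = _
        rw [ModularForm.coe_pow]
        rfl
      rw [← h3]
      exact this
    have h2 := hP τ
    rw [CuspForm.discriminantEquiv_apply, h1] at h2
    have hd := discriminant_ne_zero τ
    rw [Polynomial.eval_add, ← h2]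
    simp only [Polynomial.eval_mul, Polynomial.eval_C, Polynomial.eval_pow,
      Polynomial.eval_X, j]
    rw [div_pow, ← pow_mul, pow_succ (discriminant τ) m]
    field_simp
    ring

/-- **(LEV1)** level one functions are polynomials in `j`. -/
theorem lev1 {f : ℍ → ℂ} (hf : f ∈ OY ⊤) : ∃ P : Polynomial ℂ, ∀ τ, f τ = P.eval (j τ) := by
  obtain ⟨m, F, hF⟩ := exists_form hf
  obtain ⟨P, hP⟩ := lev1_aux m _ rfl F
  refine ⟨P, fun τ => ?_⟩
  rw [← hP, hF, mul_div_cancel_right₀ _ (pow_ne_zero _ (discriminant_ne_zero τ))]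

lemma E₄_slash (γ : SL(2, ℤ)) (τ : ℍ) : E₄ (γ • τ) = denom γ τ ^ (4 : ℤ) * E₄ τ := by
  have h := congrFun (E₄.slash_action_eq' (γ : GL (Fin 2) ℝ) ⟨γ, rfl⟩) τ
  have h2 : ((E₄ : ℍ → ℂ) ∣[(4 : ℤ)] γ) τ = E₄ τ := h
  rw [SL_slash_apply] at h2
  rw [← h2]
  field_simp [denom_ne_zero]

lemma j_smul (γ : SL(2, ℤ)) (τ : ℍ) : j (γ • τ) = j τ := by
  rw [j, j, E₄_slash, disc_slash]
  have hd := discriminant_ne_zero τ
  have h1 := denom_ne_zero (γ : GL (Fin 2) ℝ) τ
  field_simp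

lemma j_mem (Γ : Subgroup SL(2, ℤ)) : j ∈ OY Γ := by
  refine ⟨?_, ⟨1, fun γ => ?_⟩, fun γ _ τ => j_smul γ τ⟩
  · exact (E₄.holo'.pow 3).div CuspForm.discriminant.holo' discriminant_ne_zero
  · have h1 : (fun τ => j (γ • τ) * discriminant τ ^ 1) = fun τ => E₄ τ ^ 3 := by
      ext τ
      rw [j_smul, j, pow_one, div_mul_cancel₀ _ (discriminant_ne_zero τ)]
    rw [h1]
    exact (boundedAtImInftySubalgebra ℂ).pow_mem (x := E₄)
      (ModularFormClass.bdd_at_infty E₄) 3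

theorem j_surj : Function.Surjective j := by
  intro c
  by_contra hc
  push Not at hc
  -- the form `E₄ ^ 3 - c Δ` has no zero
  have hne : ∀ τ, E₄ τ ^ 3 - c * discriminant τ ≠ 0 := by
    intro τ h0
    apply hc τ
    rw [j, div_eq_iff (discriminant_ne_zero τ)]
    exact sub_eq_zero.mp h0
  have hinv : ∀ (γ : SL(2, ℤ)) (τ : ℍ), discriminant (γ • τ) / (E₄ (γ • τ) ^ 3 - c * discriminant (γ • τ))
      = discriminant τ / (E₄ τ ^ 3 - c * discriminant τ) := by
    intro γ τ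
    have h2 := hne τ
    have h1 := denom_ne_zero (γ : GL (Fin 2) ℝ) τ
    rw [disc_slash, E₄_slash, mul_pow, ← zpow_natCast (denom γ τ ^ (4 : ℤ)), ← zpow_mul]
    have h3 : denom γ τ ^ ((4 : ℤ) * ((3 : ℕ) : ℤ)) * E₄ τ ^ 3 - c * (denom γ τ ^ (12 : ℤ) * discriminant τ)
      = denom γ τ ^ (12 : ℤ) * (E₄ τ ^ 3 - c * discriminant τ) := by
      norm_num
      ring
    rw [h3, mul_div_mul_left _ _ (zpow_ne_zero _ h1)]
  have hE : Tendsto (fun τ => E₄ τ) atImInfty (𝓝 1) := by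
    have hanal := ModularFormClass.analyticAt_cuspFunction_zero E₄ one_pos one_mem_strictPeriods_SL
    have h0 : cuspFunction 1 E₄ 0 = 1 := by
      have h1 := EisensteinSeries.E_qExpansion_coeff_zero (k := 4) (by norm_num) ⟨2, rfl⟩
      rw [qExpansion_coeff] at h1
      simpa using h1
    rw [← h0]
    exact (hanal.continuousAt.tendsto.comp (qParam_tendsto_atImInfty one_pos)).congr
      (fun τ ↦ SlashInvariantFormClass.eq_cuspFunction E₄ τ one_mem_strictPeriods_SL one_ne_zero)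
  have hlim : Tendsto (fun τ => discriminant τ / (E₄ τ ^ 3 - c * discriminant τ)) atImInfty (𝓝 0) := by
    have h1 := (discriminant_isZeroAtImInfty : Tendsto discriminant atImInfty (𝓝 0))
    have h2 := h1.div ((hE.pow 3).sub (h1.const_mul c)) (by norm_num)
    rw [zero_div] at h2
    exact h2
  have hmem : (fun τ => discriminant τ / (E₄ τ ^ 3 - c * discriminant τ)) ∈ OY ⊤ := by
    refine ⟨?_, ⟨0, fun γ => ?_⟩, fun γ _ τ => hinv γ τ⟩
    · exact CuspForm.discriminant.holo'.div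
        ((E₄.holo'.pow 3).sub (mdifferentiable_const.mul CuspForm.discriminant.holo')) hne
    · simp only [hinv, pow_zero, mul_one]
      exact IsZeroAtImInfty.isBoundedAtImInfty hlim
  obtain ⟨F, hF⟩ := exists_form' hmem 0
    (by simpa using IsZeroAtImInfty.isBoundedAtImInfty hlim) 0 (by simp)
  obtain ⟨b, hb⟩ := ModularFormClass.levelOne_weight_zero_const F
  have hb' : (fun τ => discriminant τ / (E₄ τ ^ 3 - c * discriminant τ)) = fun _ => b := by
    ext τ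
    have := hF τ
    rw [hb] at this
    simpa using this.symm
  rw [hb'] at hlim
  have hb0 : b = 0 := tendsto_nhds_unique tendsto_const_nhds hlim
  have h3 := congrFun hb' UpperHalfPlane.I
  simp only [hb0] at h3
  exact (div_ne_zero (discriminant_ne_zero _) (hne _)) h3

end Vale.Agent.P022.H429
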